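import Vale.Agent.P354CB.Ez

/-!
Segments in a chart: rays, near points, openness of the chronological relation.
-/

open Set Filter Topology Metric

namespace Vale.Agent.P354CB13

open Vale.Agent.P354n Vale.Agent.P354CB
open Vale.Agent.P354XJ (g_cont isOpen_tgt inv_cont co_cont co_mem inv_co bilin_of)

/-- The field seg of B0. -/
def SEG : Prop := ∀ {M}, St M → ∀ {e : M.Chart} {z v}, (∀ t ∈ Icc (0 : ℝ) 1, z + t • v ∈ tgt e ∧
    M.g e (z + t • v) v v < 0 ∧ M.g e (z + t • v) v (M.X e (z + t • v)) < 0) →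
    Cv M (Icc 0 1) fun t => inv e (z + t • v)

/-- The field ll_cv of B0. -/
def LLCV : Prop :=
  ∀ {M}, St M → ∀ {I c} {s t : ℝ}, Cv M I c → Icc s t ⊆ I → s < t → LL M (c s) (c t)

variable {M : Spc} {e : M.Chart} {z a : R4}

/-- Future timelike vectors form an open set. -/
theorem fut_ev (h : St M) (hz : z ∈ tgt e) (h1 : M.g e z a a < 0) (h2 : M.g e z a (M.X e z) < 0) :
    ∀ᶠ q : R4 × R4 in 𝓝 (z, a), q.1 ∈ tgt e ∧ M.g e q.1 q.2 q.2 < 0 ∧
      M.g e q.1 q.2 (M.X e q.1) < 0 := by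
  have hT := (isOpen_tgt e).mem_nhds hz
  have c1 : ContinuousAt (fun q : R4 × R4 => M.g e q.1 q.2 q.2) (z, a) :=
    g_cont h.sp (p := Prod.fst) (a := Prod.snd) (b := Prod.snd) hz continuousAt_fst
      continuousAt_snd continuousAt_snd
  have c2 : ContinuousAt (fun q : R4 × R4 => M.g e q.1 q.2 (M.X e q.1)) (z, a) :=
    g_cont h.sp (p := Prod.fst) (a := Prod.snd) (b := fun q => M.X e q.1) hz continuousAt_fst
      continuousAt_snd (ContinuousAt.comp (g := M.X e) (f := Prod.fst)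
        ((h.sp.continuous e).continuousAt hT) continuousAt_fst)
  exact ((continuousAt_fst (p := (z, a))).eventually hT).and
    ((c1.eventually (gt_mem_nhds h1)).and (c2.eventually (gt_mem_nhds h2)))

/-- Segments with direction close to a future timelike vector are future curves. -/
theorem seg_ball (hs : SEG) (h : St M) (hz : z ∈ tgt e) (h1 : M.g e z a a < 0)
    (h2 : M.g e z a (M.X e z) < 0) {V : Set M.pt} (hV : V ∈ 𝓝 (inv e z)) :
    ∃ r > 0, ∀ y ∈ ball z r, ∀ y' ∈ ball z r, ∀ s > (0 : ℝ), ∀ u ∈ ball a r, y' = y + s • u →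
      ∃ c, Cv M (Icc 0 1) c ∧ MapsTo c (Icc 0 1) V ∧ c 0 = inv e y ∧ c 1 = inv e y' := by
  have k : ∀ᶠ q : R4 × R4 in 𝓝 (z, a), inv e q.1 ∈ V :=
    (continuousAt_fst (p := (z, a))).eventually ((inv_cont hz).eventually hV)
  obtain ⟨r, r0, hr⟩ := Metric.eventually_nhds_iff_ball.1 ((fut_ev h hz h1 h2).and k)
  refine ⟨r, r0, fun y hy y' hy' s s0 u hu e' => ?_⟩
  have m : ∀ t ∈ Icc (0 : ℝ) 1, (y + t • s • u, u) ∈ ball (z, a) r := fun t ht => by
    rw [← ball_prod_same]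
    exact ⟨(convex_ball z r).add_smul_mem hy (e' ▸ hy') ht, hu⟩
  refine ⟨fun t => inv e (y + t • s • u), hs h fun t ht => ?_, fun t ht => (hr _ (m t ht)).2,
    by simp, by simp [e']⟩
  obtain ⟨⟨a1, a2, a3⟩, -⟩ := hr _ (m t ht)
  have B := bilin_of (h.lor e) a1
  refine ⟨a1, ?_, ?_⟩
  · rw [B.smul_left, B.smul_right]
    exact mul_neg_of_pos_of_neg s0 (mul_neg_of_pos_of_neg s0 a2)
  · rw [B.smul_left]
    exact mul_neg_of_pos_of_neg s0 a3

theorem lim_add (z a : R4) : Tendsto (fun s : ℝ => z + s • a) (𝓝[>] 0) (𝓝 z) := by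
  have : Tendsto (fun s : ℝ => z + s • a) (𝓝 0) (𝓝 (z + (0 : ℝ) • a)) :=
    (by fun_prop : Continuous fun s : ℝ => z + s • a).tendsto 0
  rw [zero_smul, add_zero] at this
  exact this.mono_left nhdsWithin_le_nhds

theorem lim_sub (z a : R4) : Tendsto (fun s : ℝ => z - s • a) (𝓝[>] 0) (𝓝 z) := by
  simpa only [smul_neg, ← sub_eq_add_neg] using lim_add z (-a)

theorem ray (hs : SEG) : ∀ {M}, St M → ∀ {e : M.Chart} {z a}, z ∈ tgt e → M.g e z a a < 0 →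
    M.g e z a (M.X e z) < 0 → ∀ᶠ s in 𝓝[>] (0 : ℝ),
      LL M (inv e (z - s • a)) (inv e z) ∧ LL M (inv e z) (inv e (z + s • a)) := by
  intro M h e z a hz h1 h2
  obtain ⟨r, r0, hr⟩ := seg_ball hs h hz h1 h2 univ_mem
  filter_upwards [self_mem_nhdsWithin, (lim_add z a).eventually (ball_mem_nhds z r0),
    (lim_sub z a).eventually (ball_mem_nhds z r0)] with s s0 k1 k2
  obtain ⟨c, c1, -, c2⟩ := hr _ k2 _ (mem_ball_self r0) s s0 a (mem_ball_self r0) (by simp)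
  obtain ⟨c', d1, -, d2⟩ := hr _ (mem_ball_self r0) _ k1 s s0 a (mem_ball_self r0) rfl
  exact ⟨⟨c, c1, c2⟩, c', d1, d2⟩

theorem ray_at (hs : SEG) (h : St M) {x : M.pt} (he : On e x) : ∀ᶠ s in 𝓝[>] (0 : ℝ),
    LL M (inv e (co e x - s • M.X e (co e x))) x ∧ LL M x (inv e (co e x + s • M.X e (co e x))) := by
  have t := h.sp.timelike e _ (co_mem he)
  simpa only [inv_co he] using ray hs h (co_mem he) t t

theorem inv_lim {x : M.pt} (he : On e x) {f : ℝ → R4} {l : Filter ℝ}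
    (k : Tendsto f l (𝓝 (co e x))) : Tendsto (fun s => inv e (f s)) l (𝓝 x) := by
  have := (inv_cont (co_mem he)).tendsto.comp k
  rwa [inv_co he] at this

theorem nearF (hs : SEG) : ∀ {M}, St M → ∀ a, a ∈ closure {b | LL M a b} := by
  intro M h a
  obtain ⟨e, he⟩ := M.cover a
  exact mem_closure_of_tendsto (inv_lim he (lim_add _ _)) ((ray_at hs h he).mono fun _ k => k.2)

theorem nearP (hs : SEG) : ∀ {M}, St M → ∀ b, b ∈ closure {a | LL M a b} := by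
  intro M h a
  obtain ⟨e, he⟩ := M.cover a
  exact mem_closure_of_tendsto (inv_lim he (lim_sub _ _)) ((ray_at hs h he).mono fun _ k => k.1)

theorem mid (hl : LLCV) (h : St M) {c : ℝ → M.pt} (hc : Cv M (Icc 0 1) c) {t : ℝ}
    (ht : t ∈ Ioo (0 : ℝ) 1) : LL M (c 0) (c t) ∧ LL M (c t) (c 1) :=
  ⟨hl h hc (Icc_subset_Icc_right ht.2.le) ht.1, hl h hc (Icc_subset_Icc_left ht.1.le) ht.2⟩

theorem midP (hl : LLCV) :
    ∀ {M}, St M → ∀ {a b}, LL M a b → ∀ V ∈ 𝓝 a, ∃ q ∈ V, LL M a q ∧ LL M q b := by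
  rintro M h _ _ ⟨c, hc, rfl, rfl⟩ V hV
  have k : ∀ᶠ t in 𝓝[>] (0 : ℝ), c t ∈ V :=
    ((hc.1 0 (left_mem_Icc.2 zero_le_one)).mono_of_mem_nhdsWithin
      (Icc_mem_nhdsGT zero_lt_one)).eventually hV
  obtain ⟨t, t1, t2⟩ := (k.and (Ioo_mem_nhdsGT zero_lt_one)).exists
  exact ⟨c t, t1, mid hl h hc t2⟩

theorem midF (hl : LLCV) :
    ∀ {M}, St M → ∀ {a b}, LL M a b → ∀ V ∈ 𝓝 b, ∃ q ∈ V, LL M a q ∧ LL M q b := by
  rintro M h _ _ ⟨c, hc, rfl, rfl⟩ V hV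
  have k : ∀ᶠ t in 𝓝[<] (1 : ℝ), c t ∈ V :=
    ((hc.1 1 (right_mem_Icc.2 zero_le_one)).mono_of_mem_nhdsWithin
      (Icc_mem_nhdsLT zero_lt_one)).eventually hV
  obtain ⟨t, t1, t2⟩ := (k.and (Ioo_mem_nhdsLT zero_lt_one)).exists
  exact ⟨c t, t1, mid hl h hc t2⟩

/-- From a point y below x in the chart, all points near x are reached by segments. -/
theorem fan {x : M.pt} (he : On e x) {r s : ℝ} (r0 : 0 < r) (s0 : 0 < s) {y : R4}
    (hy : s⁻¹ • (co e x - y) ∈ ball a r) : ∀ᶠ x' in 𝓝 x, On e x' ∧ co e x' ∈ ball (co e x) r ∧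
      ∃ u ∈ ball a r, co e x' = y + s • u := by
  have c : ContinuousAt (fun x' => s⁻¹ • (co e x' - y)) x :=
    ((co_cont he).sub (continuousAt_const (y := y))).const_smul s⁻¹
  filter_upwards [P354XJ.on_nhds he, (co_cont he).eventually (ball_mem_nhds _ r0),
    c.eventually (isOpen_ball.mem_nhds hy)] with x' k1 k2 k3
  exact ⟨k1, k2, _, k3, by rw [smul_inv_smul₀ s0.ne', add_sub_cancel]⟩

theorem past (hs : SEG) : ∀ {M}, St M → ∀ x, ∀ V ∈ 𝓝 x, ∃ w ∈ V, ∀ᶠ x' in 𝓝 x,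
    ∃ c, Cv M (Icc 0 1) c ∧ MapsTo c (Icc 0 1) V ∧ c 0 = w ∧ c 1 = x' := by
  intro M h x V hV
  obtain ⟨e, he⟩ := M.cover x
  have t := h.sp.timelike e _ (co_mem he)
  obtain ⟨r, r0, hr⟩ := seg_ball hs h (co_mem he) t t (V := V) (by rwa [inv_co he])
  obtain ⟨s, s0, k1, k2⟩ := (Eventually.and (self_mem_nhdsWithin : ∀ᶠ s in 𝓝[>] (0 : ℝ), 0 < s)
    (((lim_sub _ (M.X e (co e x))).eventually (ball_mem_nhds (co e x) r0)).and
      ((inv_lim he (lim_sub _ (M.X e (co e x)))).eventually hV))).exists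
  refine ⟨_, k2, (fan he r0 s0 (y := co e x - s • M.X e (co e x)) (a := M.X e (co e x))
    ?_).mono fun x' k => ?_⟩
  · rw [sub_sub_cancel, inv_smul_smul₀ (ne_of_gt s0)]
    exact mem_ball_self r0
  · obtain ⟨m1, m2, u, m3, m4⟩ := k
    simpa only [inv_co m1] using hr _ k1 _ m2 s s0 u m3 m4

/-- **OPEN.** -/
theorem opn (B : B0) (C : CORNER) : OPEN := by
  intro M h a
  refine isOpen_iff_mem_nhds.2 ?_
  rintro _ ⟨c, hc, rfl, rfl⟩
  obtain ⟨e, he⟩ := M.cover (c 1)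
  have o : (1 : ℝ) ∈ Icc (0 : ℝ) 1 := right_mem_Icc.2 zero_le_one
  obtain ⟨d1, d2⟩ := hc.2 1 o e he
  obtain ⟨h1, h2⟩ := d2 _ _ rfl rfl
  rw [neg_zero] at h1
  have D := ((d1.differentiableWithinAt one_ne_zero).hasDerivWithinAt.mono_of_mem_nhdsWithin
    (Icc_mem_nhdsLT zero_lt_one))
  obtain ⟨r, r0, hr⟩ := seg_ball B.seg h (co_mem he) h1 h2 univ_mem
  have S := (hasDerivWithinAt_iff_tendsto_slope' (self_notMem_Iio (a := (1 : ℝ)))).1 D
  have ct : Tendsto c (𝓝[<] 1) (𝓝 (c 1)) :=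
    (hc.1 1 o).mono_of_mem_nhdsWithin (Icc_mem_nhdsLT zero_lt_one)
  obtain ⟨t, t1, t2, t3, t4⟩ := (Eventually.and
    (Ioo_mem_nhdsLT zero_lt_one : ∀ᶠ t in 𝓝[<] (1 : ℝ), t ∈ Ioo 0 1) ((S.eventually (ball_mem_nhds _ r0)).and ((ct.eventually (P354XJ.on_nhds he)).and
      (((co_cont he).tendsto.comp ct).eventually (ball_mem_nhds _ r0))))).exists
  have s0 : 0 < 1 - t := sub_pos.2 t1.2
  rw [slope_comm, slope_def_module] at t2
  filter_upwards [fan he r0 s0 (y := co e (c t)) t2] with x' k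
  obtain ⟨m1, m2, u, m3, m4⟩ := k
  obtain ⟨w, w1, -, w2, w3⟩ := hr _ t4 _ m2 _ s0 u m3 m4
  exact ll_trans B C h (mid B.ll_cv h hc t1).1
    ⟨w, w1, w2.trans (inv_co t3), w3.trans (inv_co m1)⟩

end Vale.Agent.P354CB13
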